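import Vale.Agent.P181.PL.Defs
import Vale.Agent.P181.H530.Inj
import Vale.Agent.P181.H530.Pad
import Vale.Agent.P181.H530.Zero
import Vale.Agent.P181.H463.Big

set_option autoImplicit false

/-!
# P181, PL11: the polylog theorem from the scan
-/

universe u

namespace Vale.Agent.P181.PL11

open Filter
open Vale.Agent.P181.T4 (ex ex_of_lt ex_anti)
open Vale.Agent.P181.T7 (PadStmt ZeroStmt)
open Vale.Agent.P181.H280 (plethMult)
open Vale.Agent.P181.PL (ScanS PolyS)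

/-- It is enough to treat partitions with at most `a` rows, all positive. -/
theorem trimA {a b : ℕ}
    (h : ∀ (k : ℕ) (mu : Fin k → ℕ), k ≤ a → Antitone mu → ∑ i, mu i = a * b →
      (∀ i, 0 < mu i) → plethMult a b k mu ≤ plethMult b a k mu) (N : ℕ) (lam : Fin N → ℕ) :
    plethMult a b N lam ≤ plethMult b a N lam := by
  by_cases hz : plethMult a b N lam = 0
  · rw [hz]
    exact Nat.zero_le _
  obtain ⟨hanti, hsum, hrow⟩ := H530.zero_stmt a b N lam hz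
  have hex : ∃ k, k = N ∨ ex lam k = 0 := ⟨N, Or.inl rfl⟩
  obtain ⟨k, hkN, hspec, hpos⟩ : ∃ k, k ≤ N ∧ (k = N ∨ ex lam k = 0) ∧
      ∀ i, i < k → 0 < ex lam i := by
    refine ⟨Nat.find hex, Nat.find_min' hex (Or.inl rfl), Nat.find_spec hex, fun i hi => ?_⟩
    have h1 := Nat.find_min hex hi
    push Not at h1
    exact Nat.pos_of_ne_zero h1.2
  have hka : k ≤ a := by
    by_contra hc
    have h1 := hpos a (by omega)
    rw [ex_of_lt lam (show a < N by omega)] at h1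
    have h2 := hrow ⟨a, by omega⟩ le_rfl
    omega
  have hzero : ∀ i : Fin N, k ≤ (i : ℕ) → lam i = 0 := by
    intro i hi
    rcases hspec with h1 | h1
    · exact absurd i.2 (by omega)
    · have h2 := ex_anti hanti hi
      rw [h1, ex_of_lt lam i.2] at h2
      exact Nat.le_zero.1 h2
  obtain ⟨l, rfl⟩ := Nat.exists_eq_add_of_le hkN
  obtain ⟨mu, hmu⟩ : ∃ mu : Fin k → ℕ, mu = fun j => lam (Fin.castAdd l j) := ⟨_, rfl⟩
  have hlam' : lam = fun i : Fin (k + l) => if h : (i : ℕ) < k then mu ⟨i, h⟩ else 0 := by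
    funext i
    by_cases hi : (i : ℕ) < k
    · rw [dif_pos hi, hmu]
      rfl
    · rw [dif_neg hi]
      exact hzero i (by omega)
  have hmu1 : Antitone mu := by
    intro i j hij
    have hij' : (i : ℕ) ≤ j := hij
    rw [hmu]
    exact hanti (show Fin.castAdd l i ≤ Fin.castAdd l j from hij')
  have hmu2 : ∑ i, mu i = a * b := by
    rw [← hsum, Fin.sum_univ_add, hmu]
    have h2 : ∑ i : Fin l, lam (Fin.natAdd k i) = 0 := by
      apply Finset.sum_eq_zero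
      intro i _
      exact hzero _ (by simp)
    rw [h2, add_zero]
  have hmu3 : ∀ i, 0 < mu i := by
    intro i
    have h1 := hpos i i.2
    rw [ex_of_lt lam (show (i : ℕ) < k + l by omega)] at h1
    rw [hmu]
    exact h1
  rw [hlam', H530.pad_stmt a b k l mu, H530.pad_stmt b a k l mu]
  exact h k mu hka hmu1 hmu2 hmu3

/-- a power of the logarithm is small -/
lemma ev_polylog (M : ℝ) (hM : 0 < M) (p : ℕ) :
    ∀ᶠ a : ℕ in atTop, (M * (1 + Real.log a) ^ 7) ^ p ≤ a := by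
  have h1 : ∀ᶠ x : ℝ in atTop, ‖Real.log x ^ ((7 * p : ℕ) : ℝ)‖ ≤
      1 / (M ^ p * 2 ^ (7 * p)) * ‖x ^ (1 : ℝ)‖ :=
    (isLittleO_log_rpow_rpow_atTop ((7 * p : ℕ) : ℝ) one_pos).bound (by positivity)
  have h2 : ∀ᶠ x : ℝ in atTop, 1 ≤ Real.log x := Real.tendsto_log_atTop.eventually_ge_atTop 1
  have h3 : ∀ᶠ x : ℝ in atTop, (M * (1 + Real.log x) ^ 7) ^ p ≤ x := by
    filter_upwards [h1, h2, eventually_ge_atTop (0 : ℝ)] with x hx1 hx2 hx0
    rw [Real.rpow_natCast, Real.rpow_one, Real.norm_of_nonneg (by positivity),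
      Real.norm_of_nonneg hx0] at hx1
    have h5 : (1 + Real.log x) ^ (7 * p) ≤ (2 * Real.log x) ^ (7 * p) :=
      pow_le_pow_left₀ (by linarith) (by linarith) _
    have h6 : (0 : ℝ) < M ^ p * 2 ^ (7 * p) := by positivity
    calc (M * (1 + Real.log x) ^ 7) ^ p = M ^ p * (1 + Real.log x) ^ (7 * p) := by
          rw [mul_pow, ← pow_mul]
      _ ≤ M ^ p * (2 * Real.log x) ^ (7 * p) := mul_le_mul_of_nonneg_left h5 (by positivity)
      _ = (M ^ p * 2 ^ (7 * p)) * Real.log x ^ (7 * p) := by rw [mul_pow]; ring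
      _ ≤ (M ^ p * 2 ^ (7 * p)) * (1 / (M ^ p * 2 ^ (7 * p)) * x) :=
          mul_le_mul_of_nonneg_left hx1 h6.le
      _ = x := by
          rw [← mul_assoc, mul_one_div_cancel h6.ne', one_mul]
  exact tendsto_natCast_atTop_atTop.eventually h3

/-- the numbers, with the exponents as variables -/
lemma nums {A M L a₀ b : ℝ} {p q : ℕ} (hA : 1 ≤ A) (hM : 0 < M) (hL : 1 ≤ L) (ha₀ : 0 ≤ a₀)
    (hq : q = 7 * p) (hb : (M ^ p + a₀ + 1) * A * L ^ q ≤ b) :
    a₀ * A ≤ b ∧ A * (M * L ^ 7) ^ p ≤ b := by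
  have hL1 : 1 ≤ L ^ q := one_le_pow₀ hL
  have hMp : 0 < M ^ p := pow_pos hM p
  have hA0 : 0 ≤ A := by linarith
  constructor
  · calc a₀ * A ≤ (M ^ p + a₀ + 1) * A := mul_le_mul_of_nonneg_right (by linarith) hA0
      _ = (M ^ p + a₀ + 1) * A * 1 := (mul_one _).symm
      _ ≤ (M ^ p + a₀ + 1) * A * L ^ q := mul_le_mul_of_nonneg_left hL1 (by positivity)
      _ ≤ b := hb
  · calc A * (M * L ^ 7) ^ p = M ^ p * A * L ^ q := by
          rw [hq, mul_pow, ← pow_mul]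
          ring
      _ ≤ (M ^ p + a₀ + 1) * A * L ^ q := by
          refine mul_le_mul_of_nonneg_right (mul_le_mul_of_nonneg_right ?_ hA0) (by linarith)
          linarith
      _ ≤ b := hb

/-- **(P11)** with the exponents as variables. -/
theorem poly_of {p q : ℕ} (h : ∀ (a b n X : ℕ) (lam : Fin n → ℕ), Antitone lam →
    ∑ i, lam i = a * b → (∀ i, 0 < lam i) → n ≤ a → b ≤ a ^ 2 → a * X ^ p ≤ b → X ^ q ≤ a →
    10 ^ 12 * (1 + Real.log a) ^ 7 ≤ X → plethMult a b n lam ≤ plethMult b a n lam) : PolyS := by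
  obtain ⟨M, hM⟩ : ∃ M : ℝ, M = 2 * 10 ^ 12 := ⟨_, rfl⟩
  have hM0 : 0 < M := by rw [hM]; norm_num
  obtain ⟨a₀, h0⟩ := eventually_atTop.1 (ev_polylog M hM0 q)
  have hMp : 0 < M ^ p := pow_pos hM0 p
  have ha₀ : (0 : ℝ) ≤ a₀ := Nat.cast_nonneg _
  refine ⟨M ^ p + a₀ + 1, 7 * p, by linarith, fun a b hb => ?_⟩
  rcases Nat.eq_zero_or_pos a with ha0 | ha0
  · intro n lam
    apply H463.big_stmt
    subst ha0
    simp
  have hA1 : (1 : ℝ) ≤ a := by exact_mod_cast ha0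
  have hlog : 0 ≤ Real.log a := Real.log_nonneg hA1
  obtain ⟨e1, e2⟩ := nums hA1 hM0 (by linarith : (1 : ℝ) ≤ 1 + Real.log a) ha₀ rfl hb
  -- small `a`
  rcases Nat.lt_or_ge a a₀ with ha | ha
  · intro n lam
    apply H463.big_stmt
    have h2 : a₀ * a ≤ b := by exact_mod_cast e1
    calc (a - 1) ^ 2 ≤ a ^ 2 := Nat.pow_le_pow_left (Nat.sub_le _ _) 2
      _ = a * a := sq a
      _ ≤ a₀ * a := Nat.mul_le_mul_right _ ha.le
      _ ≤ b := h2
  rcases Nat.lt_or_ge (a ^ 2) b with hb2 | hb2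
  · intro n lam
    apply H463.big_stmt
    exact (Nat.pow_le_pow_left (Nat.sub_le _ _) 2).trans hb2.le
  -- the number `X`
  obtain ⟨y, hy⟩ : ∃ y : ℝ, y = 10 ^ 12 * (1 + Real.log a) ^ 7 := ⟨_, rfl⟩
  have hy1 : 1 ≤ y := by
    have h1 : (1 : ℝ) ≤ (1 + Real.log a) ^ 7 := one_le_pow₀ (by linarith)
    rw [hy]
    linarith
  obtain ⟨X, hX⟩ : ∃ X : ℕ, X = ⌈y⌉₊ := ⟨_, rfl⟩
  have hX1 : y ≤ X := by
    rw [hX]
    exact Nat.le_ceil _
  have hX2 : (X : ℝ) ≤ M * (1 + Real.log a) ^ 7 := by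
    have h1 := Nat.ceil_lt_add_one (by linarith : (0 : ℝ) ≤ y)
    rw [← hX] at h1
    have h2 : M * (1 + Real.log a) ^ 7 = 2 * y := by
      rw [hM, hy, mul_assoc]
    rw [h2]
    linarith
  have hXa : X ^ q ≤ a := by
    have h1 : (X : ℝ) ^ q ≤ a := (pow_le_pow_left₀ (Nat.cast_nonneg _) hX2 _).trans (h0 a ha)
    exact_mod_cast h1
  have hXb : a * X ^ p ≤ b := by
    have h1 : (a : ℝ) * (X : ℝ) ^ p ≤ b :=
      (mul_le_mul_of_nonneg_left (pow_le_pow_left₀ (Nat.cast_nonneg _) hX2 _)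
        (by linarith)).trans e2
    exact_mod_cast h1
  exact trimA fun k mu hk hmu hsum hpos =>
    h a b k X mu hmu hsum hpos hk hb2 hXb hXa (by rw [← hy]; exact hX1)

/-- **(P11)** -/
theorem poly_of_scan (h : ScanS) : PolyS :=
  poly_of (p := 6000) (q := 20000) h

/-- The form of the hand-in. -/
theorem poly_result (h : PolyS) : ∃ (C : ℝ) (c : ℕ), ∀ a b : ℕ,
    C * (a : ℝ) * (1 + Real.log a) ^ c ≤ b →
      H530.FoulkesInjection.{u} a b ∧
        ∀ (n : ℕ) (lam : Fin n → ℕ), plethMult a b n lam ≤ plethMult b a n lam := by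
  obtain ⟨C, c, -, hC⟩ := h
  exact ⟨C, c, fun a b hb => ⟨H530.foulkesInjection_of_mult (hC a b hb), hC a b hb⟩⟩

end Vale.Agent.P181.PL11
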